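import Mathlib

/-!
Assembly of the cube lower bound for P249 (helper23, backup of step J5 of report 1854).

`cube_lb_core`: the abstract counting argument, in terms of `q`-th powers of distances.
`cube_lb_of_lemmas`: the statement for `PiLp`, with the four lemmas of report 1854
(concentration on the cube, upper bound, averaged lower bound, injectivity) as hypotheses.
-/

namespace Vale.Agent.Lib.P249.H23

open Finset

/-- The constant of the cube lower bound. -/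
noncomputable def cubeConst (q : ℝ) : ℝ :=
  (2 : ℝ) ^ (q / 2) / ((2 : ℝ) ^ (q + 2) * (2 * q ^ (q / 2) * (2 : ℝ) ^ q) * q ^ (q / 4))

theorem cubeConst_pos (q : ℝ) (hq : 2 ≤ q) : 0 < cubeConst q := by
  unfold cubeConst
  have hq0 : 0 < q := by linarith
  positivity

theorem cube_lb_core (q : ℝ) (hq : 2 ≤ q) (K : ℕ) (hK : 1 ≤ K)
    (hconc : ∀ (Lam : ℝ), 0 ≤ Lam → ∀ (h : (Fin K → Bool) → ℝ),
      (∀ a b, |h a - h b| ≤ Lam * Real.sqrt (hammingDist a b)) →
      ∑ a, ∑ b, |h a - h b| ^ q ≤ 4 ^ K * 2 ^ (q + 2) * Lam ^ q * (q * K) ^ (q / 4))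
    (X : (Fin K → Bool) → (Fin K → Bool) → ℝ)
    (hx1 : ∀ a b, X a b ≤ 2 * q ^ (q / 2) * 2 ^ q * 2 ^ K * (hammingDist a b : ℝ) ^ (q / 2))
    (hx2 : (8 : ℝ) ^ K * (2 * K) ^ (q / 2) ≤ ∑ a, ∑ b, X a b)
    (d : ℕ) (Y : (Fin K → Bool) → Fin d → ℝ) (s D : ℝ) (hs : 0 < s) (hD : 0 ≤ D)
    (hlow : ∀ a b, s ^ q * X a b ≤ ∑ j, |Y a j - Y b j| ^ q)
    (hup : ∀ a b, ∑ j, |Y a j - Y b j| ^ q ≤ D ^ q * s ^ q * X a b) :
    cubeConst q * (K : ℝ) ^ (q / 4) ≤ D ^ q * d := by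
  have hq0 : 0 < q := by linarith
  have hKpos : (0 : ℝ) < K := by exact_mod_cast hK
  set U : ℝ := 2 * q ^ (q / 2) * (2 : ℝ) ^ q with hU
  have hUpos : 0 < U := by rw [hU]; positivity
  have h2K : (0 : ℝ) < (2 : ℝ) ^ K := by positivity
  set Lam : ℝ := D * s * (U * (2 : ℝ) ^ K) ^ (1 / q) with hLam
  have hLam0 : 0 ≤ Lam := by rw [hLam]; positivity
  have hsq : 0 < s ^ q := Real.rpow_pos_of_pos hs q
  have hDq : 0 ≤ D ^ q := Real.rpow_nonneg hD q
  have hLamq : Lam ^ q = D ^ q * s ^ q * (U * (2 : ℝ) ^ K) := by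
    rw [hLam, Real.mul_rpow (by positivity) (by positivity), Real.mul_rpow hD hs.le,
      ← Real.rpow_mul (by positivity), one_div_mul_cancel hq0.ne', Real.rpow_one]
  -- each coordinate is sqrt-Hamming-Lipschitz
  have hlip : ∀ j : Fin d, ∀ a b,
      |Y a j - Y b j| ≤ Lam * Real.sqrt (hammingDist a b) := by
    intro j a b
    have h1 : |Y a j - Y b j| ^ q ≤ ∑ j, |Y a j - Y b j| ^ q :=
      Finset.single_le_sum (f := fun j => |Y a j - Y b j| ^ q)
        (fun i _ => Real.rpow_nonneg (abs_nonneg _) q) (Finset.mem_univ j)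
    have h2 : |Y a j - Y b j| ^ q ≤ (Lam * Real.sqrt (hammingDist a b)) ^ q := by
      have hsqrt : Real.sqrt (hammingDist a b : ℝ) ^ q = (hammingDist a b : ℝ) ^ (q / 2) := by
        rw [Real.sqrt_eq_rpow, ← Real.rpow_mul (Nat.cast_nonneg _)]
        congr 1
        ring
      rw [Real.mul_rpow hLam0 (Real.sqrt_nonneg _), hLamq, hsqrt]
      calc |Y a j - Y b j| ^ q ≤ ∑ j, |Y a j - Y b j| ^ q := h1
        _ ≤ D ^ q * s ^ q * X a b := hup a b
        _ ≤ D ^ q * s ^ q * (2 * q ^ (q / 2) * 2 ^ q * 2 ^ K *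
              (hammingDist a b : ℝ) ^ (q / 2)) :=
            mul_le_mul_of_nonneg_left (hx1 a b) (by positivity)
        _ = D ^ q * s ^ q * (U * 2 ^ K) * (hammingDist a b : ℝ) ^ (q / 2) := by
            rw [hU]; ring
    exact (Real.rpow_le_rpow_iff (abs_nonneg _) (by positivity) hq0).mp h2
  -- concentration for each coordinate, summed
  have hsum_up : ∑ a, ∑ b, ∑ j, |Y a j - Y b j| ^ q ≤
      d * (4 ^ K * 2 ^ (q + 2) * Lam ^ q * (q * K) ^ (q / 4)) := by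
    have hA : ∑ a, ∑ b, ∑ j, |Y a j - Y b j| ^ q =
        ∑ j, ∑ a, ∑ b, |Y a j - Y b j| ^ q := by
      calc ∑ a, ∑ b, ∑ j, |Y a j - Y b j| ^ q
          = ∑ a, ∑ j, ∑ b, |Y a j - Y b j| ^ q :=
            Finset.sum_congr rfl (fun a _ => Finset.sum_comm)
        _ = ∑ j, ∑ a, ∑ b, |Y a j - Y b j| ^ q := Finset.sum_comm
    rw [hA]
    calc ∑ j, ∑ a, ∑ b, |Y a j - Y b j| ^ q
        ≤ ∑ _j : Fin d, (4 ^ K * 2 ^ (q + 2) * Lam ^ q * (q * K) ^ (q / 4)) :=
          Finset.sum_le_sum (fun j _ => hconc Lam hLam0 (fun a => Y a j) (hlip j))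
      _ = d * (4 ^ K * 2 ^ (q + 2) * Lam ^ q * (q * K) ^ (q / 4)) := by
          rw [Finset.sum_const, Finset.card_univ, Fintype.card_fin, nsmul_eq_mul]
  have hsum_low : s ^ q * ((8 : ℝ) ^ K * (2 * K) ^ (q / 2)) ≤
      ∑ a, ∑ b, ∑ j, |Y a j - Y b j| ^ q := by
    calc s ^ q * ((8 : ℝ) ^ K * (2 * K) ^ (q / 2)) ≤ s ^ q * ∑ a, ∑ b, X a b :=
          mul_le_mul_of_nonneg_left hx2 hsq.le
      _ = ∑ a, ∑ b, s ^ q * X a b := by
          rw [Finset.mul_sum]
          exact Finset.sum_congr rfl (fun a _ => Finset.mul_sum _ _ _)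
      _ ≤ ∑ a, ∑ b, ∑ j, |Y a j - Y b j| ^ q :=
          Finset.sum_le_sum (fun a _ => Finset.sum_le_sum (fun b _ => hlow a b))
  have hmain := hsum_low.trans hsum_up
  rw [hLamq] at hmain
  -- simplify the powers
  have e1 : (2 * (K : ℝ)) ^ (q / 2) = (2 : ℝ) ^ (q / 2) * ((K : ℝ) ^ (q / 4) * (K : ℝ) ^ (q / 4)) := by
    rw [Real.mul_rpow (by norm_num) hKpos.le, ← Real.rpow_add hKpos]
    congr 2
    ring
  have e2 : (q * (K : ℝ)) ^ (q / 4) = q ^ (q / 4) * (K : ℝ) ^ (q / 4) :=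
    Real.mul_rpow hq0.le hKpos.le
  have e3 : (8 : ℝ) ^ K = 4 ^ K * 2 ^ K := by
    rw [← mul_pow]; norm_num
  rw [e1, e2, e3] at hmain
  have hK4 : 0 < (K : ℝ) ^ (q / 4) := Real.rpow_pos_of_pos hKpos _
  have h4K : (0 : ℝ) < (4 : ℝ) ^ K := by positivity
  have hq4 : 0 < q ^ (q / 4) := Real.rpow_pos_of_pos hq0 _
  have h2q2 : 0 < (2 : ℝ) ^ (q + 2) := Real.rpow_pos_of_pos (by norm_num) _
  have h2h : 0 < (2 : ℝ) ^ (q / 2) := Real.rpow_pos_of_pos (by norm_num) _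
  -- cancel the common positive factor
  have hcancel : (2 : ℝ) ^ (q / 2) * (K : ℝ) ^ (q / 4) ≤
      (d : ℝ) * D ^ q * ((2 : ℝ) ^ (q + 2) * U * q ^ (q / 4)) := by
    have hpos : 0 < s ^ q * ((4 : ℝ) ^ K * 2 ^ K) * (K : ℝ) ^ (q / 4) := by positivity
    refine le_of_mul_le_mul_left ?_ hpos
    calc s ^ q * ((4 : ℝ) ^ K * 2 ^ K) * (K : ℝ) ^ (q / 4) * ((2 : ℝ) ^ (q / 2) * (K : ℝ) ^ (q / 4))
        = s ^ q * (4 ^ K * 2 ^ K * ((2 : ℝ) ^ (q / 2) * ((K : ℝ) ^ (q / 4) * (K : ℝ) ^ (q / 4)))) := by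
          ring
      _ ≤ (d : ℝ) * (4 ^ K * 2 ^ (q + 2) * (D ^ q * s ^ q * (U * 2 ^ K)) *
            (q ^ (q / 4) * (K : ℝ) ^ (q / 4))) := hmain
      _ = s ^ q * ((4 : ℝ) ^ K * 2 ^ K) * (K : ℝ) ^ (q / 4) *
            ((d : ℝ) * D ^ q * ((2 : ℝ) ^ (q + 2) * U * q ^ (q / 4))) := by ring
  unfold cubeConst
  rw [← hU, div_mul_eq_mul_div, div_le_iff₀ (by positivity)]
  calc (2 : ℝ) ^ (q / 2) * (K : ℝ) ^ (q / 4) ≤
        (d : ℝ) * D ^ q * ((2 : ℝ) ^ (q + 2) * U * q ^ (q / 4)) := hcancel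
    _ = D ^ q * d * ((2 : ℝ) ^ (q + 2) * U * q ^ (q / 4)) := by ring

/-- The cube lower bound for `PiLp`, from the four lemmas of report 1854 (as hypotheses). -/
theorem cube_lb_of_lemmas
    (hconc : ∀ (K : ℕ), 1 ≤ K → ∀ (q : ℝ), 2 ≤ q → ∀ (Lam : ℝ), 0 ≤ Lam →
      ∀ (h : (Fin K → Bool) → ℝ),
      (∀ a b, |h a - h b| ≤ Lam * Real.sqrt (hammingDist a b)) →
      ∑ a, ∑ b, |h a - h b| ^ q ≤ 4 ^ K * 2 ^ (q + 2) * Lam ^ q * (q * K) ^ (q / 4))
    (hx1 : ∀ (K : ℕ) (q : ℝ), 2 ≤ q → ∀ (a b : Fin K → Bool),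
      ∑ e : Fin K → Bool,
        |∑ i, ((if a i then (-1 : ℝ) else 1) - (if b i then (-1 : ℝ) else 1)) *
          (if e i then (-1 : ℝ) else 1)| ^ q
        ≤ 2 * q ^ (q / 2) * 2 ^ q * 2 ^ K * (hammingDist a b : ℝ) ^ (q / 2))
    (hx2 : ∀ (K : ℕ) (q : ℝ), 2 ≤ q →
      (8 : ℝ) ^ K * (2 * K) ^ (q / 2) ≤
        ∑ a : Fin K → Bool, ∑ b : Fin K → Bool, ∑ e : Fin K → Bool,
          |∑ i, ((if a i then (-1 : ℝ) else 1) - (if b i then (-1 : ℝ) else 1)) *
            (if e i then (-1 : ℝ) else 1)| ^ q)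
    (hinj : ∀ K : ℕ, Function.Injective (fun (a : Fin K → Bool) (e : Fin K → Bool) =>
      ∑ i, (if a i then (-1 : ℝ) else 1) * (if e i then (-1 : ℝ) else 1)))
    (p : ENNReal) [Fact (1 ≤ p)] (hp : p ≠ ⊤) (hp2 : 2 ≤ p) :
    ∃ c : ℝ, 0 < c ∧ ∀ K : ℕ, 1 ≤ K →
      ∃ (m : ℕ) (x : Fin (2 ^ K) → PiLp p (fun _ : Fin m => ℝ)), Function.Injective x ∧
        ∀ (d : ℕ) (y : Fin (2 ^ K) → PiLp p (fun _ : Fin d => ℝ)) (s D : ℝ), 0 < s →
          (∀ i j, s * dist (x i) (x j) ≤ dist (y i) (y j) ∧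
            dist (y i) (y j) ≤ D * s * dist (x i) (x j)) →
          c * (K : ℝ) ^ (p.toReal / 4) ≤ D ^ p.toReal * d := by
  have hq : 2 ≤ p.toReal := by
    have := ENNReal.toReal_mono hp hp2
    simpa using this
  have hq0 : 0 < p.toReal := by linarith
  refine ⟨cubeConst p.toReal, cubeConst_pos p.toReal hq, fun K hK => ?_⟩
  have hcard : Fintype.card (Fin K → Bool) = 2 ^ K := by simp
  let e : Fin (2 ^ K) ≃ (Fin K → Bool) := (Fintype.equivFinOfCardEq hcard).symm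
  let rad : (Fin K → Bool) → (Fin K → Bool) → ℝ := fun a ε =>
    ∑ i, (if a i then (-1 : ℝ) else 1) * (if ε i then (-1 : ℝ) else 1)
  let x : Fin (2 ^ K) → PiLp p (fun _ : Fin (2 ^ K) => ℝ) := fun i =>
    WithLp.toLp p (fun k => rad (e i) (e k))
  have hxapp : ∀ i k, x i k = rad (e i) (e k) := fun i k => rfl
  refine ⟨2 ^ K, x, ?_, ?_⟩
  · intro i j hij
    apply e.injective
    apply hinj K
    funext ε
    have h1 : x i (e.symm ε) = x j (e.symm ε) := by rw [hij]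
    rw [hxapp, hxapp, Equiv.apply_symm_apply] at h1
    exact h1
  · intro d y s D hs hy
    have hdist : ∀ (n : ℕ) (u v : PiLp p (fun _ : Fin n => ℝ)),
        dist u v ^ p.toReal = ∑ k, |u k - v k| ^ p.toReal := by
      intro n u v
      rw [PiLp.dist_eq_sum hq0,
        ← Real.rpow_mul (Finset.sum_nonneg (fun k _ => Real.rpow_nonneg dist_nonneg _)),
        one_div_mul_cancel hq0.ne', Real.rpow_one]
      exact Finset.sum_congr rfl (fun k _ => by rw [Real.dist_eq])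
    have hXeq : ∀ a b : Fin K → Bool,
        dist (x (e.symm a)) (x (e.symm b)) ^ p.toReal =
          ∑ ε : Fin K → Bool,
            |∑ i, ((if a i then (-1 : ℝ) else 1) - (if b i then (-1 : ℝ) else 1)) *
              (if ε i then (-1 : ℝ) else 1)| ^ p.toReal := by
      intro a b
      rw [hdist, ← Equiv.sum_comp e]
      refine Finset.sum_congr rfl (fun k _ => ?_)
      rw [hxapp, hxapp, Equiv.apply_symm_apply, Equiv.apply_symm_apply]
      congr 2
      rw [← Finset.sum_sub_distrib]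
      exact Finset.sum_congr rfl (fun i _ => by ring)
    -- D is at least one, in particular nonnegative
    have hD : 0 ≤ D := by
      have h2 : 2 ≤ 2 ^ K := by
        calc 2 = 2 ^ 1 := by norm_num
          _ ≤ 2 ^ K := Nat.pow_le_pow_right (by norm_num) hK
      let i0 : Fin (2 ^ K) := ⟨0, by omega⟩
      let i1 : Fin (2 ^ K) := ⟨1, by omega⟩
      have hne : i0 ≠ i1 := by
        intro h
        have := congrArg Fin.val h
        simp [i0, i1] at this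
      have hxinj : Function.Injective x := by
        intro i j hij
        apply e.injective
        apply hinj K
        funext ε
        have h1 : x i (e.symm ε) = x j (e.symm ε) := by rw [hij]
        rw [hxapp, hxapp, Equiv.apply_symm_apply] at h1
        exact h1
      have hpos : 0 < dist (x i0) (x i1) := dist_pos.mpr (fun h => hne (hxinj h))
      have h3 := (hy i0 i1).1.trans (hy i0 i1).2
      have h4 : 0 < s * dist (x i0) (x i1) := mul_pos hs hpos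
      have h5 : 1 * (s * dist (x i0) (x i1)) ≤ D * (s * dist (x i0) (x i1)) := by
        rw [one_mul, ← mul_assoc]; exact h3
      have h6 : 1 ≤ D := le_of_mul_le_mul_right h5 h4
      linarith
    refine cube_lb_core p.toReal hq K hK (hconc K hK p.toReal hq)
      (fun a b => dist (x (e.symm a)) (x (e.symm b)) ^ p.toReal) ?_ ?_ d
      (fun a j => y (e.symm a) j) s D hs hD ?_ ?_
    · intro a b
      show dist (x (e.symm a)) (x (e.symm b)) ^ p.toReal ≤ _
      rw [hXeq]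
      exact hx1 K p.toReal hq a b
    · have : ∑ a : Fin K → Bool, ∑ b : Fin K → Bool,
          dist (x (e.symm a)) (x (e.symm b)) ^ p.toReal =
          ∑ a : Fin K → Bool, ∑ b : Fin K → Bool, ∑ ε : Fin K → Bool,
            |∑ i, ((if a i then (-1 : ℝ) else 1) - (if b i then (-1 : ℝ) else 1)) *
              (if ε i then (-1 : ℝ) else 1)| ^ p.toReal :=
        Finset.sum_congr rfl (fun a _ => Finset.sum_congr rfl (fun b _ => hXeq a b))
      show _ ≤ ∑ a : Fin K → Bool, ∑ b : Fin K → Bool,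
          dist (x (e.symm a)) (x (e.symm b)) ^ p.toReal
      rw [this]
      exact hx2 K p.toReal hq
    · intro a b
      show s ^ p.toReal * dist (x (e.symm a)) (x (e.symm b)) ^ p.toReal ≤
        ∑ j, |y (e.symm a) j - y (e.symm b) j| ^ p.toReal
      rw [← hdist, ← Real.mul_rpow hs.le dist_nonneg]
      exact Real.rpow_le_rpow (mul_nonneg hs.le dist_nonneg) (hy _ _).1 hq0.le
    · intro a b
      show ∑ j, |y (e.symm a) j - y (e.symm b) j| ^ p.toReal ≤
        D ^ p.toReal * s ^ p.toReal * dist (x (e.symm a)) (x (e.symm b)) ^ p.toReal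
      rw [← hdist, ← Real.mul_rpow hD hs.le, ← Real.mul_rpow (mul_nonneg hD hs.le) dist_nonneg]
      exact Real.rpow_le_rpow dist_nonneg (hy _ _).2 hq0.le

end Vale.Agent.Lib.P249.H23
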